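import Vale.Agent.Lib.P368.Tof.Defs

/-!
# P368, Toffoli model: commutation of layers with disjoint supports
-/

namespace Vale.Agent.Lib.P368

open Finset

variable {Q : Type} [Fintype Q] [DecidableEq Q]

/-- A layer of one-qubit gates that is trivial on all qubits of the gates of `L` commutes with
the layer `L` of multi-controlled `Z` gates. -/
theorem oneQubitLayer_czLayer_comm (u : Q → Matrix Bool Bool ℂ) (L : Finset (Finset Q))
    (h : ∀ S ∈ L, ∀ p ∈ S, u p = 1) (ψ : StateVec Q) :
    oneQubitLayer u (czLayer L ψ) = czLayer L (oneQubitLayer u ψ) := by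
  funext z
  show ∑ w : Q → Bool, (∏ p, u p (z p) (w p)) * ((∏ S ∈ L, czSign S w) * ψ w) =
    (∏ S ∈ L, czSign S z) * ∑ w : Q → Bool, (∏ p, u p (z p) (w p)) * ψ w
  rw [Finset.mul_sum]
  refine Finset.sum_congr rfl fun w _ => ?_
  by_cases hzero : ∏ p, u p (z p) (w p) = 0
  · rw [hzero, zero_mul, zero_mul, mul_zero]
  · have hagree : ∀ S ∈ L, ∀ p ∈ S, w p = z p := by
      intro S hS p hp
      by_contra hne
      apply hzero
      refine Finset.prod_eq_zero (Finset.mem_univ p) ?_
      rw [h S hS p hp]
      exact Matrix.one_apply_ne fun hzw => hne hzw.symm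
    have hsign : ∏ S ∈ L, czSign S w = ∏ S ∈ L, czSign S z := by
      refine Finset.prod_congr rfl fun S hS => ?_
      have hiff : (∀ p ∈ S, w p = true) ↔ (∀ p ∈ S, z p = true) := by
        constructor
        · intro hw p hp
          rw [← hagree S hS p hp]
          exact hw p hp
        · intro hz p hp
          rw [hagree S hS p hp]
          exact hz p hp
      unfold czSign
      exact if_congr hiff rfl rfl
    rw [hsign]
    ring

theorem czLayer_insert (S : Finset Q) (L : Finset (Finset Q)) (hS : S ∉ L) (ψ : StateVec Q) :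
    czLayer (insert S L) ψ = czLayer L (czLayer {S} ψ) := by
  funext z
  show (∏ T ∈ insert S L, czSign T z) * ψ z =
    (∏ T ∈ L, czSign T z) * ((∏ T ∈ ({S} : Finset (Finset Q)), czSign T z) * ψ z)
  rw [Finset.prod_insert hS, Finset.prod_singleton]
  ring

/-- Two layers of one-qubit gates such that at every qubit one of them is trivial commute. -/
theorem oneQubitLayer_comm (u v : Q → Matrix Bool Bool ℂ) (h : ∀ p, u p = 1 ∨ v p = 1)
    (ψ : StateVec Q) :
    oneQubitLayer u (oneQubitLayer v ψ) = oneQubitLayer v (oneQubitLayer u ψ) := by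
  rw [oneQubitLayer_comp, oneQubitLayer_comp]
  congr 1
  funext p
  rcases h p with hp | hp <;> simp [hp]

end Vale.Agent.Lib.P368
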