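import Vale.Agent.Lib.P368.D2.Main2

/-!
# P368: the circuit model of the problem (one-qubit unitaries and generalized Toffoli gates)
-/

namespace Vale.Agent.Lib.P368

open Finset

/-- A gate: `Sum.inl (p, u)` is the one-qubit gate `u` on qubit `p`, and `Sum.inr (c, t)` is the
generalized Toffoli gate with control qubits `c` and target qubit `t`. -/
abbrev TGate (Q : Type) : Type := (Q × Matrix Bool Bool ℂ) ⊕ (Finset Q × Q)

section

variable {Q : Type} [Fintype Q] [DecidableEq Q]

/-- The qubits a gate acts on. -/
def TGate.support : TGate Q → Finset Q
  | Sum.inl g => {g.1}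
  | Sum.inr g => insert g.2 g.1

/-- A one-qubit gate is unitary; a generalized Toffoli gate has at least one control qubit and
its target is not one of its controls. -/
def TGate.Valid : TGate Q → Prop
  | Sum.inl g => g.2 ∈ Matrix.unitaryGroup Bool ℂ
  | Sum.inr g => g.1.Nonempty ∧ g.2 ∉ g.1

/-- The action of a gate on state vectors.  The generalized Toffoli gate sends the basis state
`z` to `z` with the target bit flipped if all control bits are `1`, and to `z` otherwise. -/
noncomputable def TGate.act : TGate Q → StateVec Q → StateVec Q
  | Sum.inl g, ψ => oneQubitLayer (singleGate g.1 g.2) ψ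
  | Sum.inr g, ψ => fun z =>
      ψ (if ∀ p ∈ g.1, z p = true then Function.update z g.2 (!z g.2) else z)

/-- A layer is a list of gates; it is valid if its gates are valid and have pairwise disjoint
supports. -/
def LayerValid (l : List (TGate Q)) : Prop :=
  (∀ g ∈ l, g.Valid) ∧ l.Pairwise fun g g' => Disjoint g.support g'.support

/-- The gates of a layer applied one after another. -/
noncomputable def layerAct (l : List (TGate Q)) (ψ : StateVec Q) : StateVec Q :=
  l.foldl (fun φ g => g.act φ) ψ

/-- A layer is entangling if it contains a generalized Toffoli gate. -/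
def isEnt (l : List (TGate Q)) : Bool := l.any fun g => g.isRight

/-- The layers of a circuit applied in order. -/
noncomputable def tRun (Tc : List (List (TGate Q))) (ψ : StateVec Q) : StateVec Q :=
  Tc.foldl (fun φ l => layerAct l φ) ψ

/-- Entangling depth: the number of layers that contain a generalized Toffoli gate. -/
def entDepth (Tc : List (List (TGate Q))) : ℕ := (Tc.filter isEnt).length

/-- Probability that the circuit outputs `b` on qubit `q` when the input bit `x a` is loaded on
qubit `inp a` and all other qubits start in `0`. -/
noncomputable def tOutProb (Tc : List (List (TGate Q))) {α : Type} (inp : α ↪ Q) (q : Q)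
    (x : α → Bool) (b : Bool) : ℝ :=
  measProb (tRun Tc (basisState (Function.extend inp x fun _ => false))) q b

/-- Parity correlation: the average over uniform inputs `x` of
`Pr[output = parity x] - Pr[output ≠ parity x]`. -/
noncomputable def tParityCorrelation (Tc : List (List (TGate Q))) {α : Type} [Fintype α]
    [DecidableEq α] (inp : α ↪ Q) (q : Q) : ℝ :=
  (∑ x : α → Bool, (tOutProb Tc inp q x (parity x) - tOutProb Tc inp q x (!parity x))) /
    ((2 ^ Fintype.card α : ℕ) : ℝ)

/-- The union of the supports of the gates of a layer. -/
def layerSupport (l : List (TGate Q)) : Finset Q := l.foldr (fun g s => g.support ∪ s) ∅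

/-- The state after `pre` rounds, each a layer of one-qubit gates followed by a layer of
multi-controlled `Z` gates, and a last layer of one-qubit gates. -/
noncomputable def preRun (pre : List ((Q → Matrix Bool Bool ℂ) × Finset (Finset Q)))
    (last : Q → Matrix Bool Bool ℂ) (ψ : StateVec Q) : StateVec Q :=
  oneQubitLayer last (pre.foldl (fun φ s => czLayer s.2 (oneQubitLayer s.1 φ)) ψ)

end

end Vale.Agent.Lib.P368
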