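import Vale.Agent.Lib.P368.Tof.Defs

/-!
# P368, Toffoli model: a generalized Toffoli gate is a multi-controlled `Z` gate conjugated by
the Hadamard gate on the target
-/

namespace Vale.Agent.Lib.P368

open Finset

/-- The Hadamard matrix. -/
noncomputable def hadamard : Matrix Bool Bool ℂ :=
  fun a b => if a = true ∧ b = true then -(1 / (Real.sqrt 2 : ℂ)) else 1 / (Real.sqrt 2 : ℂ)

/-- The entries of the Hadamard matrix are `h, h, h, -h` with `h * h = 1 / 2`. -/
theorem tg_entries : ∃ h : ℂ, h * h = 1 / 2 ∧ (starRingEnd ℂ) h = h ∧ hadamard false false = h ∧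
    hadamard false true = h ∧ hadamard true false = h ∧ hadamard true true = -h := by
  refine ⟨1 / (Real.sqrt 2 : ℂ), ?_, ?_, ?_, ?_, ?_, ?_⟩
  · have h2 : (Real.sqrt 2 : ℂ) * (Real.sqrt 2 : ℂ) = 2 := by
      rw [← Complex.ofReal_mul, Real.mul_self_sqrt (by norm_num : (0 : ℝ) ≤ 2)]
      norm_num
    rw [div_mul_div_comm, one_mul, h2]
  · rw [map_div₀, map_one, Complex.conj_ofReal]
  · simp [hadamard]
  · simp [hadamard]
  · simp [hadamard]
  · simp [hadamard]

theorem hadamard_mem : hadamard ∈ Matrix.unitaryGroup Bool ℂ := by
  obtain ⟨h, hh, hstar, hff, hft, htf, htt⟩ := tg_entries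
  rw [Matrix.mem_unitaryGroup_iff]
  ext a b
  rw [Matrix.mul_apply, Fintype.sum_bool, Matrix.star_apply, Matrix.star_apply,
    Matrix.one_apply]
  cases a <;> cases b
  · rw [hft, hff, if_pos rfl]
    show h * (starRingEnd ℂ) h + h * (starRingEnd ℂ) h = 1
    rw [hstar]
    linear_combination 2 * hh
  · rw [hft, hff, htt, htf, if_neg (by decide)]
    show h * (starRingEnd ℂ) (-h) + h * (starRingEnd ℂ) h = 0
    rw [map_neg, hstar]
    ring
  · rw [htt, htf, hft, hff, if_neg (by decide)]
    show -h * (starRingEnd ℂ) h + h * (starRingEnd ℂ) h = 0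
    rw [hstar]
    ring
  · rw [htt, htf, if_pos rfl]
    show -h * (starRingEnd ℂ) (-h) + h * (starRingEnd ℂ) h = 1
    rw [map_neg, hstar]
    linear_combination 2 * hh

variable {Q : Type} [Fintype Q] [DecidableEq Q]

/-- Generalized Toffoli = Hadamard on the target, multi-controlled `Z` on controls and target,
Hadamard on the target. -/
theorem toffoli_act_eq (c : Finset Q) (t : Q) (ht : t ∉ c) (ψ : StateVec Q) :
    TGate.act (Sum.inr (c, t)) ψ =
      oneQubitLayer (singleGate t hadamard)
        (czLayer {insert t c} (oneQubitLayer (singleGate t hadamard) ψ)) := by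
  obtain ⟨h, hh, -, hff, hft, htf, htt⟩ := tg_entries
  funext z
  have hL : TGate.act (Sum.inr (c, t)) ψ z
      = ψ (if ∀ p ∈ c, z p = true then Function.update z t (!z t) else z) := rfl
  have hcz : ∀ w : Q → Bool,
      czLayer {insert t c} (oneQubitLayer (singleGate t hadamard) ψ) w
        = czSign (insert t c) w * (hadamard (w t) false * ψ (Function.update w t false)
          + hadamard (w t) true * ψ (Function.update w t true)) := by
    intro w
    show (∏ S ∈ ({insert t c} : Finset (Finset Q)), czSign S w)
        * oneQubitLayer (singleGate t hadamard) ψ w = _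
    rw [Finset.prod_singleton, cl_single_apply]
  rw [hL, cl_single_apply, hcz, hcz]
  simp only [Function.update_idem, Function.update_self]
  rw [me_czSign_false _ _ (Finset.mem_insert_self t c),
    me_czSign_true _ _ (Finset.mem_insert_self t c), Finset.erase_insert ht]
  by_cases hall : ∀ p ∈ c, z p = true
  · rw [if_pos hall, if_pos hall]
    cases hzt : z t
    · rw [hff, hft, htf, htt]
      show ψ (Function.update z t true) = _
      linear_combination (-2 * ψ (Function.update z t true)) * hh
    · rw [hff, hft, htf, htt]
      show ψ (Function.update z t false) = _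
      linear_combination (-2 * ψ (Function.update z t false)) * hh
  · rw [if_neg hall, if_neg hall]
    cases hzt : z t
    · have e : Function.update z t false = z := by
        rw [← hzt, Function.update_eq_self]
      rw [hff, hft, htf, htt, e]
      linear_combination (-2 * ψ z) * hh
    · have e : Function.update z t true = z := by
        rw [← hzt, Function.update_eq_self]
      rw [hff, hft, htf, htt, e]
      linear_combination (-2 * ψ z) * hh

end Vale.Agent.Lib.P368
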