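import Vale.Agent.Lib.P368.Tof.Normal

/-!
# P368, Toffoli model: circuits of entangling depth at most two
-/

namespace Vale.Agent.Lib.P368

open Finset

variable {Q : Type} [Fintype Q] [DecidableEq Q]

theorem normSqSum_preFold (pre : List ((Q → Matrix Bool Bool ℂ) × Finset (Finset Q)))
    (hpre : ∀ s ∈ pre, ∀ p, s.1 p ∈ Matrix.unitaryGroup Bool ℂ) (ψ : StateVec Q) :
    normSqSum (pre.foldl (fun φ s => czLayer s.2 (oneQubitLayer s.1 φ)) ψ) = normSqSum ψ := by
  induction pre generalizing ψ with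
  | nil => rfl
  | cons s rest ih =>
    rw [List.foldl_cons, ih (fun s' hs' => hpre s' (List.mem_cons_of_mem _ hs')),
      normSqSum_czLayer, normSqSum_oneQubitLayer _ (hpre s List.mem_cons_self)]

theorem normSqSum_preRun (pre : List ((Q → Matrix Bool Bool ℂ) × Finset (Finset Q)))
    (last : Q → Matrix Bool Bool ℂ)
    (hpre : ∀ s ∈ pre, ∀ p, s.1 p ∈ Matrix.unitaryGroup Bool ℂ)
    (hlast : ∀ p, last p ∈ Matrix.unitaryGroup Bool ℂ) (ψ : StateVec Q) :
    normSqSum (preRun pre last ψ) = normSqSum ψ := by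
  unfold preRun
  rw [normSqSum_oneQubitLayer _ hlast, normSqSum_preFold pre hpre]

/-- At most two rounds, written as exactly two rounds. -/
theorem preRun_le_two (pre : List ((Q → Matrix Bool Bool ℂ) × Finset (Finset Q)))
    (last : Q → Matrix Bool Bool ℂ) (hlen : pre.length ≤ 2)
    (hpre : ∀ s ∈ pre, (∀ p, s.1 p ∈ Matrix.unitaryGroup Bool ℂ) ∧
      (s.2 : Set (Finset Q)).PairwiseDisjoint id) :
    ∃ (first v : Q → Matrix Bool Bool ℂ) (L1 L2 : Finset (Finset Q)),
      (∀ p, first p ∈ Matrix.unitaryGroup Bool ℂ) ∧ (∀ p, v p ∈ Matrix.unitaryGroup Bool ℂ) ∧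
      (L1 : Set (Finset Q)).PairwiseDisjoint id ∧ (L2 : Set (Finset Q)).PairwiseDisjoint id ∧
      ∀ ψ : StateVec Q, preRun pre last ψ =
        oneQubitLayer last (oneQubitLayer (fun _ => 1) (czLayer L2 (oneQubitLayer v
          (czLayer L1 (oneQubitLayer first ψ))))) := by
  have hempty : ((∅ : Finset (Finset Q)) : Set (Finset Q)).PairwiseDisjoint id := by
    simp
  match pre, hlen, hpre with
  | [], _, _ =>
    refine ⟨fun _ => 1, fun _ => 1, ∅, ∅, fun _ => one_mem _, fun _ => one_mem _, hempty,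
      hempty, fun ψ => ?_⟩
    rw [oneQubitLayer_one, czLayer_empty, oneQubitLayer_one, czLayer_empty, oneQubitLayer_one]
    rfl
  | [s], _, hpre =>
    have hs := hpre s List.mem_cons_self
    refine ⟨s.1, fun _ => 1, s.2, ∅, hs.1, fun _ => one_mem _, hs.2, hempty, fun ψ => ?_⟩
    rw [oneQubitLayer_one, czLayer_empty, oneQubitLayer_one]
    rfl
  | [s1, s2], _, hpre =>
    have hs1 := hpre s1 List.mem_cons_self
    have hs2 := hpre s2 (List.mem_cons_of_mem _ List.mem_cons_self)
    refine ⟨s1.1, s2.1, s1.2, s2.2, hs1.1, hs2.1, hs1.2, hs2.2, fun ψ => ?_⟩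
    rw [oneQubitLayer_one]
    rfl
  | _ :: _ :: _ :: _, hlen, _ =>
    simp at hlen

/-- The two output probabilities of a valid circuit add up to `1`. -/
theorem tOutProb_add (Tc : List (List (TGate Q))) (hv : ∀ l ∈ Tc, LayerValid l) {α : Type}
    (inp : α ↪ Q) (q : Q) (x : α → Bool) :
    tOutProb Tc inp q x true + tOutProb Tc inp q x false = 1 := by
  obtain ⟨pre, last, _, _, hpre, hlast, hrun⟩ := tRun_normal_form Tc hv
  unfold tOutProb
  rw [measProb_add, hrun, normSqSum_preRun pre last (fun s hs => (hpre s hs).1) hlast,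
    normSqSum_basisState]

/-- The signed sum of the output probabilities of a circuit of entangling depth at most two. -/
theorem t_signed_sum_depth_two {n : ℕ} (inp : Fin n ↪ Q) (Tc : List (List (TGate Q)))
    (hv : ∀ l ∈ Tc, LayerValid l) (hd : entDepth Tc ≤ 2) (q : Q) (b : Bool) :
    |∑ x : Fin n → Bool, sgn x * tOutProb Tc inp q x b| ≤ 3 * (12 / 7 : ℝ) ^ n := by
  obtain ⟨pre, last, hlen, _, hpre, hlast, hrun⟩ := tRun_normal_form Tc hv
  obtain ⟨first, v, L1, L2, hfirst, hv', hL1, hL2, hform⟩ :=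
    preRun_le_two pre last (hlen.trans_le hd) hpre
  unfold tOutProb
  simp only [hrun, hform]
  exact signed_sum_two inp first v (fun _ => 1) last L1 L2 hfirst hv' (fun _ => one_mem _)
    hlast hL1 hL2 q b

/-- From signed sums of outcome probabilities to the parity correlation and the worst-case
advantage. -/
theorem parity_corr_bound {n : ℕ} (P : (Fin n → Bool) → Bool → ℝ)
    (hadd : ∀ x, P x true + P x false = 1)
    (hs : ∀ b, |∑ x : Fin n → Bool, sgn x * P x b| ≤ 3 * (12 / 7 : ℝ) ^ n) :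
    |(∑ x : Fin n → Bool, (P x (parity x) - P x (!parity x))) /
        ((2 ^ Fintype.card (Fin n) : ℕ) : ℝ)| ≤ 6 * (6 / 7 : ℝ) ^ n ∧
      ∀ ε : ℝ, (∀ x : Fin n → Bool, 1 / 2 + ε ≤ P x (parity x)) → ε ≤ 3 * (6 / 7 : ℝ) ^ n := by
  have hcard : Fintype.card (Fin n) = n := Fintype.card_fin n
  have hx : ∀ x : Fin n → Bool,
      P x (parity x) - P x (!parity x) = sgn x * P x false - sgn x * P x true := by
    intro x
    rw [sgn_eq_parity]
    cases h : parity x
    · simp
    · simp
      ring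
  have hS : (∑ x : Fin n → Bool, (P x (parity x) - P x (!parity x))) =
      (∑ x : Fin n → Bool, sgn x * P x false) - ∑ x : Fin n → Bool, sgn x * P x true := by
    rw [← Finset.sum_sub_distrib]
    exact Finset.sum_congr rfl fun x _ => hx x
  have hSabs : |∑ x : Fin n → Bool, (P x (parity x) - P x (!parity x))| ≤
      2 * (3 * (12 / 7 : ℝ) ^ n) := by
    rw [hS]
    have h1 := hs false
    have h2 := hs true
    have h3 := abs_sub (∑ x : Fin n → Bool, sgn x * P x false)
      (∑ x : Fin n → Bool, sgn x * P x true)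
    linarith
  have hpow : (0 : ℝ) < 2 ^ n := by positivity
  have hratio : (12 / 7 : ℝ) ^ n = (6 / 7 : ℝ) ^ n * 2 ^ n := by
    rw [← mul_pow]
    norm_num
  have hcorr : |(∑ x : Fin n → Bool, (P x (parity x) - P x (!parity x))) /
        ((2 ^ Fintype.card (Fin n) : ℕ) : ℝ)| ≤ 6 * (6 / 7 : ℝ) ^ n := by
    rw [hcard]
    push_cast
    rw [abs_div, abs_of_pos hpow, div_le_iff₀ hpow]
    calc |∑ x : Fin n → Bool, (P x (parity x) - P x (!parity x))|
        ≤ 2 * (3 * (12 / 7 : ℝ) ^ n) := hSabs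
      _ = 6 * (6 / 7 : ℝ) ^ n * 2 ^ n := by rw [hratio]; ring
  refine ⟨hcorr, ?_⟩
  intro ε hε
  have hadd' : ∀ x : Fin n → Bool, P x (parity x) + P x (!parity x) = 1 := by
    intro x
    have h := hadd x
    cases hp : parity x
    · simp only [Bool.not_false]
      rw [add_comm]
      exact h
    · simp only [Bool.not_true]
      exact h
  have hlow : (2 * ε) * 2 ^ n ≤ ∑ x : Fin n → Bool, (P x (parity x) - P x (!parity x)) := by
    have h1 : ∀ x ∈ (Finset.univ : Finset (Fin n → Bool)),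
        2 * ε ≤ P x (parity x) - P x (!parity x) := by
      intro x _
      have h2 := hadd' x
      have h3 := hε x
      linarith
    have h5 := Finset.card_nsmul_le_sum _ _ _ h1
    rw [Finset.card_univ, nsmul_eq_mul] at h5
    have h6 : (Fintype.card (Fin n → Bool) : ℝ) = 2 ^ n := by
      simp
    rw [h6] at h5
    linarith
  have hcorr2 : 2 * ε ≤ (∑ x : Fin n → Bool, (P x (parity x) - P x (!parity x))) /
        ((2 ^ Fintype.card (Fin n) : ℕ) : ℝ) := by
    rw [hcard]
    push_cast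
    rw [le_div_iff₀ hpow]
    exact hlow
  have h7 := le_abs_self ((∑ x : Fin n → Bool, (P x (parity x) - P x (!parity x))) /
        ((2 ^ Fintype.card (Fin n) : ℕ) : ℝ))
  linarith

end Vale.Agent.Lib.P368
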