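import Vale.Agent.Lib.P368.Tof.Layer

/-!
# P368, Toffoli model: normal form of a circuit
-/

namespace Vale.Agent.Lib.P368

open Finset

variable {Q : Type} [Fintype Q] [DecidableEq Q]

/-- The rounds `pre` and the last layer `last` consist of unitaries and of pairwise disjoint
families. -/
def tn_Good (pre : List ((Q → Matrix Bool Bool ℂ) × Finset (Finset Q)))
    (last : Q → Matrix Bool Bool ℂ) : Prop :=
  (∀ s ∈ pre, (∀ p, s.1 p ∈ Matrix.unitaryGroup Bool ℂ) ∧
    (s.2 : Set (Finset Q)).PairwiseDisjoint id) ∧
  (∀ p, last p ∈ Matrix.unitaryGroup Bool ℂ)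

theorem tn_tRun_cons (l : List (TGate Q)) (rest : List (List (TGate Q))) (φ : StateVec Q) :
    tRun (l :: rest) φ = tRun rest (layerAct l φ) := rfl

theorem tn_tRun_nil (φ : StateVec Q) : tRun ([] : List (List (TGate Q))) φ = φ := rfl

theorem tn_preRun_nil (ψ : StateVec Q) :
    preRun ([] : List ((Q → Matrix Bool Bool ℂ) × Finset (Finset Q)))
      (fun _ => (1 : Matrix Bool Bool ℂ)) ψ = ψ := by
  unfold preRun
  rw [List.foldl_nil, oneQubitLayer_one]

/-- A layer of one-qubit gates after a normal form is absorbed by the last layer. -/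
theorem tn_preRun_absorb (pre : List ((Q → Matrix Bool Bool ℂ) × Finset (Finset Q)))
    (last W : Q → Matrix Bool Bool ℂ) (ψ : StateVec Q) :
    oneQubitLayer W (preRun pre last ψ) = preRun pre (fun p => W p * last p) ψ := by
  unfold preRun
  rw [oneQubitLayer_comp]

/-- A full round after a normal form gives a normal form with one more round. -/
theorem tn_preRun_snoc (pre : List ((Q → Matrix Bool Bool ℂ) × Finset (Finset Q)))
    (last H W : Q → Matrix Bool Bool ℂ) (L : Finset (Finset Q)) (ψ : StateVec Q) :
    oneQubitLayer W (czLayer L (oneQubitLayer H (preRun pre last ψ)))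
      = preRun (pre ++ [(fun p => H p * last p, L)]) W ψ := by
  unfold preRun
  rw [oneQubitLayer_comp, List.foldl_append, List.foldl_cons, List.foldl_nil]

/-- The generalised claim: a valid circuit after a normal form is a normal form. -/
theorem tn_claim (Tc : List (List (TGate Q))) :
    ∀ (pre : List ((Q → Matrix Bool Bool ℂ) × Finset (Finset Q)))
      (last : Q → Matrix Bool Bool ℂ),
      (∀ l ∈ Tc, LayerValid l) → tn_Good pre last →
      ∃ (pre' : List ((Q → Matrix Bool Bool ℂ) × Finset (Finset Q)))
        (last' : Q → Matrix Bool Bool ℂ),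
        tn_Good pre' last' ∧
        pre'.map (fun s => s.2.card) = pre.map (fun s => s.2.card) ++
          (Tc.filter isEnt).map (fun l => (l.filter fun g => g.isRight).length) ∧
        ∀ ψ : StateVec Q, tRun Tc (preRun pre last ψ) = preRun pre' last' ψ := by
  induction Tc with
  | nil =>
    intro pre last _ hgood
    refine ⟨pre, last, hgood, ?_, fun ψ => rfl⟩
    rw [List.filter_nil, List.map_nil, List.append_nil]
  | cons l rest ih =>
    intro pre last hv hgood
    have hl : LayerValid l := hv l List.mem_cons_self
    have hrest : ∀ l' ∈ rest, LayerValid l' := fun l' hl' => hv l' (List.mem_cons_of_mem _ hl')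
    obtain ⟨H, W, L, hH, hW, hL, _, _, hne, hcard, hact⟩ := layerAct_normal l hl
    by_cases he : isEnt l = true
    · -- an entangling layer: one more round
      have hgood' : tn_Good (pre ++ [(fun p => H p * last p, L)]) W := by
        refine ⟨?_, hW⟩
        intro s hs
        rcases List.mem_append.mp hs with hs | hs
        · exact hgood.1 s hs
        · rw [List.mem_singleton] at hs
          subst hs
          exact ⟨fun p => mul_mem (hH p) (hgood.2 p), hL⟩
      obtain ⟨pre', last', hg', hmap, hrun⟩ :=
        ih (pre ++ [(fun p => H p * last p, L)]) W hrest hgood'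
      refine ⟨pre', last', hg', ?_, ?_⟩
      · rw [hmap, List.filter_cons_of_pos he, List.map_append, List.map_cons, List.map_nil,
          List.map_cons, List.append_assoc, List.singleton_append, hcard]
      · intro ψ
        rw [tn_tRun_cons, hact, tn_preRun_snoc, hrun]
    · -- a layer of one-qubit gates: absorbed by the last layer
      have he' : isEnt l = false := by simpa using he
      obtain ⟨hL0, hH0⟩ := hne he'
      have hgood' : tn_Good pre (fun p => W p * last p) :=
        ⟨hgood.1, fun p => mul_mem (hW p) (hgood.2 p)⟩
      obtain ⟨pre', last', hg', hmap, hrun⟩ :=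
        ih pre (fun p => W p * last p) hrest hgood'
      refine ⟨pre', last', hg', ?_, ?_⟩
      · rw [hmap, List.filter_cons_of_neg he]
      · intro ψ
        rw [tn_tRun_cons, hact, hL0, hH0, oneQubitLayer_one, czLayer_empty, tn_preRun_absorb,
          hrun]

/-- Every valid circuit is, as a map on state vectors, a sequence of rounds (one-qubit unitaries,
then multi-controlled `Z` gates with pairwise disjoint supports), one round for each entangling
layer and with as many gates as that layer has generalized Toffoli gates, followed by a last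
layer of one-qubit unitaries. -/
theorem tRun_normal_form (Tc : List (List (TGate Q))) (hv : ∀ l ∈ Tc, LayerValid l) :
    ∃ (pre : List ((Q → Matrix Bool Bool ℂ) × Finset (Finset Q)))
      (last : Q → Matrix Bool Bool ℂ),
      pre.length = entDepth Tc ∧
      pre.map (fun s => s.2.card) =
        (Tc.filter isEnt).map (fun l => (l.filter fun g => g.isRight).length) ∧
      (∀ s ∈ pre, (∀ p, s.1 p ∈ Matrix.unitaryGroup Bool ℂ) ∧
        (s.2 : Set (Finset Q)).PairwiseDisjoint id) ∧
      (∀ p, last p ∈ Matrix.unitaryGroup Bool ℂ) ∧
      ∀ ψ : StateVec Q, tRun Tc ψ = preRun pre last ψ := by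
  have hgood0 : tn_Good ([] : List ((Q → Matrix Bool Bool ℂ) × Finset (Finset Q)))
      (fun _ => (1 : Matrix Bool Bool ℂ)) :=
    ⟨fun s hs => absurd hs List.not_mem_nil, fun _ => one_mem _⟩
  obtain ⟨pre, last, hg, hmap, hrun⟩ := tn_claim Tc [] (fun _ => 1) hv hgood0
  rw [List.map_nil, List.nil_append] at hmap
  refine ⟨pre, last, ?_, hmap, hg.1, hg.2, ?_⟩
  · have h := congrArg List.length hmap
    rw [List.length_map, List.length_map] at h
    exact h
  · intro ψ
    rw [← hrun ψ, tn_preRun_nil]

end Vale.Agent.Lib.P368
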